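import Mathlib

namespace Vale.Agent.P069h23

variable {X : Type*} [NormedAddCommGroup X] [NormedSpace ℝ X]

/-- `F ∈ cof(X)`: `F` is a closed subspace of finite codimension. -/
def IsCof (F : Submodule ℝ X) : Prop :=
  IsClosed (F : Set X) ∧ FiniteDimensional ℝ (X ⧸ F)

/-- `N` is a norm on `X` equivalent to the given norm. -/
def IsEquivNorm (N : Seminorm ℝ X) : Prop :=
  ∃ a b : ℝ, 0 < a ∧ 0 < b ∧ ∀ x : X, a * ‖x‖ ≤ N x ∧ N x ≤ b * ‖x‖

/-- The modulus `inf_{N x = 1} sup_{F ∈ cof X} inf_{y ∈ F, N y = 1} (N (x + t y) - 1)`. -/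
noncomputable def aucModulus (N : Seminorm ℝ X) (t : ℝ) : EReal :=
  ⨅ x : {x : X // N x = 1}, ⨆ F : {F : Submodule ℝ X // IsCof F},
    ⨅ y : {y : X // y ∈ F.1 ∧ N y = 1}, ((N (x.1 + t • y.1) - 1 : ℝ) : EReal)

/-- The midpoint modulus
`inf_{N x = 1} sup_{F ∈ cof X} inf_{y ∈ F, N y = 1} (max (N (x + t y)) (N (x - t y)) - 1)`. -/
noncomputable def amucModulus (N : Seminorm ℝ X) (t : ℝ) : EReal :=
  ⨅ x : {x : X // N x = 1}, ⨆ F : {F : Submodule ℝ X // IsCof F},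
    ⨅ y : {y : X // y ∈ F.1 ∧ N y = 1},
      ((max (N (x.1 + t • y.1)) (N (x.1 - t • y.1)) - 1 : ℝ) : EReal)

variable (X)

/-- `X` has an equivalent asymptotically uniformly convex norm. -/
def AUCRenormable : Prop :=
  ∃ N : Seminorm ℝ X, IsEquivNorm N ∧ ∀ t : ℝ, 0 < t → 0 < aucModulus N t

/-- `X` has an equivalent asymptotically midpoint uniformly convex norm. -/
def AMUCRenormable : Prop :=
  ∃ N : Seminorm ℝ X, IsEquivNorm N ∧ ∀ t : ℝ, 0 < t → 0 < amucModulus N t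

/-- `X` is reflexive: the canonical map into the bidual is onto. -/
def IsReflexive : Prop :=
  Function.Surjective (NormedSpace.inclusionInDoubleDual ℝ X)

end Vale.Agent.P069h23
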